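import Vale.Agent.P314.Hit
import Vale.Agent.P314.Encode
import Vale.Agent.P314.Machine

/-!
# P314, Q1: deterministic polynomial-time black-box identity testing for noncommutative formulas
-/

namespace Vale.Agent.Results.P314.AFull

open Vale.Agent.P314

/-- Let `F` be any field and `enc` any binary encoding of its elements.  There is a family
`H n s` of finite lists of matrix tuples such that

* `H n s` is a hitting set for the noncommutative formulas of size at most `s` in `n` variables;
* `H n s` is a hitting set for the algebraic branching programs with at most `s + 1` vertices;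
* `H n s` consists of one tuple, of dimension `(n+1)^2 (s+1)^4`, with entries `0` and `1`;
* a Turing machine (a `TM2` machine with finite stack alphabets) computes, from `(n, s)` in unary,
  the complete list `H n s` in time polynomial in `n + s`;
* if `enc` is injective then the output encoding is injective, so the output determines `H n s`.
-/
theorem result (F : Type) [Field F] (enc : F → List Bool) :
    ∃ H : (n : ℕ) → ℕ → List (MatTuple F n),
      (∀ n s, IsHittingSet (H n s) (formulaPolys F n s)) ∧
      (∀ n s, IsHittingSet (H n s) (branchingPolys F n (s + 1))) ∧
      (∀ n s, ∃ T : MatTuple F n, H n s = [T] ∧ T.d = (n + 1) ^ 2 * (s + 1) ^ 4 ∧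
        ∀ i r c, T.mat i r c = 0 ∨ T.mat i r c = 1) ∧
      (∃ C : Turing.TM2ComputableInPolyTime encodeInput (encodeOutput enc)
          (fun p : ℕ × ℕ => (⟨p.1, H p.1 p.2⟩ : (n : ℕ) × List (MatTuple F n))),
        ∀ k, Finite (C.tm.Γ k)) ∧
      (Function.Injective enc → Function.Injective (encodeOutput enc)) := by
  refine ⟨fun n s => [hitTuple F n s], isHittingSet_hitTuple F, isHittingSet_hitTuple_branching F,
    fun n s => ⟨hitTuple F n s, rfl, ?_, ?_⟩, exists_tm F enc, encodeOutput_injective⟩
  · simp only [hitTuple, parD, parM, parN, parB]
    ring
  · intro i r c
    have h : (hitTuple F n s).mat i r c = if HitCond n s i r c then 1 else 0 := rfl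
    rw [h]
    split_ifs
    · exact Or.inr rfl
    · exact Or.inl rfl

end Vale.Agent.Results.P314.AFull
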