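import Vale.Agent.P314.Hit

/-!
# P314: an explicit 0/1 tuple of polynomial dimension hits all nonzero noncommutative formulas
-/

namespace Vale.Agent.Results.P314.Explicit

open Vale.Agent.P314

/-- Over every field and for all `n`, `s`, the single explicit tuple `hitTuple F n s` of 0/1
matrices of dimension `(n+1)^2 (s+1)^4` is a hitting set for the polynomials computed by
noncommutative formulas of size at most `s`. -/
theorem result (F : Type*) [Field F] (n s : ℕ) :
    (hitTuple F n s).d = (n + 1) ^ 2 * (s + 1) ^ 4 ∧
      (∀ i r c, (hitTuple F n s).mat i r c = 0 ∨ (hitTuple F n s).mat i r c = 1) ∧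
      IsHittingSet [hitTuple F n s] (formulaPolys F n s) := by
  refine ⟨?_, ?_, isHittingSet_hitTuple F n s⟩
  · simp only [hitTuple, parD, parM, parN, parB]
    ring
  · intro i r c
    have h : (hitTuple F n s).mat i r c = if HitCond n s i r c then 1 else 0 := rfl
    rw [h]
    split_ifs
    · exact Or.inr rfl
    · exact Or.inl rfl

end Vale.Agent.Results.P314.Explicit
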